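import Mathlib

/-!
# Strong thin trees in dense simple graphs

An edge `uv` is robust if `u` and `v` are joined by at least `k^3/(2n)` walks `u-a-b-v`.
A maximal forest of robust edges with degrees bounded by `O((n/k)^3)` has `O((n/k)^3)` components,
and a cut containing many of its edges must contain many edges of those walks.
-/

namespace Vale.Agent.Results.P061.DenseStrongThinTree

open Finset SimpleGraph
open scoped Classical

/-- The number of edges with exactly one endpoint in `S`. -/
noncomputable def cutSize {n : ℕ} (G : SimpleGraph (Fin n)) (S : Finset (Fin n)) : ℕ :=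
  Nat.card {p : Fin n × Fin n // p.1 ∈ S ∧ p.2 ∉ S ∧ G.Adj p.1 p.2}

variable {n : ℕ}

noncomputable def cutSet (G : SimpleGraph (Fin n)) (S : Finset (Fin n)) :
    Finset (Fin n × Fin n) :=
  univ.filter fun p => p.1 ∈ S ∧ p.2 ∉ S ∧ G.Adj p.1 p.2

lemma cutSize_eq (G : SimpleGraph (Fin n)) (S : Finset (Fin n)) :
    cutSize G S = (cutSet G S).card := by
  rw [cutSize, Nat.card_eq_fintype_card, Fintype.card_subtype, cutSet]

noncomputable def nb (G : SimpleGraph (Fin n)) (v : Fin n) : Finset (Fin n) :=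
  univ.filter (G.Adj v)

lemma card_nb (G : SimpleGraph (Fin n)) (v : Fin n) : (nb G v).card = G.degree v := by
  rw [← card_neighborFinset_eq_degree]; congr 1; ext w; simp [nb]

/-- Middle edges of the walks of length three from `u` to `v`. -/
noncomputable def walks (G : SimpleGraph (Fin n)) (u v : Fin n) : Finset (Fin n × Fin n) :=
  univ.filter fun q => G.Adj u q.1 ∧ G.Adj q.1 q.2 ∧ G.Adj q.2 v

lemma walks_comm (G : SimpleGraph (Fin n)) (u v : Fin n) :
    (walks G u v).card = (walks G v u).card := by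
  refine Finset.card_equiv (Equiv.prodComm _ _) fun q => ?_
  simp [walks, G.adj_comm, and_left_comm, and_comm]

def robust (G : SimpleGraph (Fin n)) (k : ℕ) : SimpleGraph (Fin n) where
  Adj u v := G.Adj u v ∧ k ^ 3 ≤ 2 * n * (walks G u v).card
  symm := ⟨fun u v h => ⟨h.1.symm, by rw [walks_comm]; exact h.2⟩⟩
  loopless := ⟨fun u h => h.1.ne rfl⟩

lemma robust_degree (G : SimpleGraph (Fin n)) {k : ℕ} (hk : 0 < k)
    (hdeg : ∀ v, k ≤ (nb G v).card) (u : Fin n) :
    k ^ 3 ≤ 2 * n ^ 2 * (nb (robust G k) u).card := by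
  set d := (nb G u).card
  set g := (nb (robust G k) u).card
  -- the walks from `u` back to a neighbour of `u`, counted through their third vertex
  have hA : ∑ v ∈ nb G u, (walks G u v).card
      = ∑ b : Fin n, ((nb G u).filter fun a => G.Adj a b).card ^ 2 := by
    simp only [sq]
    simp_rw [← Finset.card_product]
    rw [← Finset.card_sigma, ← Finset.card_sigma]
    refine Finset.card_bij' (fun x _ => ⟨x.2.2, x.1, x.2.1⟩) (fun y _ => ⟨y.2.1, y.2.2, y.1⟩)
      ?_ ?_ ?_ ?_
    · rintro ⟨v, a, b⟩ h; simp [walks, nb, G.adj_comm] at h ⊢; tauto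
    · rintro ⟨b, v, a⟩ h; simp [walks, nb, G.adj_comm] at h ⊢; tauto
    · intros; rfl
    · intros; rfl
  have hB : d * k ≤ ∑ b : Fin n, ((nb G u).filter fun a => G.Adj a b).card := by
    calc d * k = ∑ _a ∈ nb G u, k := by simp [d]
      _ ≤ ∑ a ∈ nb G u, (nb G a).card := Finset.sum_le_sum fun a _ => hdeg a
      _ = _ := by
          simp only [nb, Finset.card_filter]
          exact Finset.sum_comm
  have hC : (d * k) ^ 2 ≤ n * ∑ v ∈ nb G u, (walks G u v).card := by
    rw [hA]
    refine (Nat.pow_le_pow_left hB 2).trans ?_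
    have h := sq_sum_le_card_mul_sum_sq (s := (univ : Finset (Fin n)))
      (f := fun b : Fin n => ((nb G u).filter fun a => G.Adj a b).card)
    simpa using h
  have hW : ∀ v, (walks G u v).card ≤ d * n := fun v => by
    calc (walks G u v).card ≤ (nb G u ×ˢ (univ : Finset (Fin n))).card :=
          card_le_card fun q hq => by simp [walks, nb] at hq ⊢; exact hq.1
      _ = d * n := by simp [d]
  have hD : 2 * n * ∑ v ∈ nb G u, (walks G u v).card ≤ 2 * n * (g * (d * n)) + d * k ^ 3 := by
    rw [← Finset.sum_filter_add_sum_filter_not (nb G u)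
      (fun v => k ^ 3 ≤ 2 * n * (walks G u v).card), mul_add]
    refine add_le_add (Nat.mul_le_mul_left _ ?_) ?_
    · have : (nb G u).filter (fun v => k ^ 3 ≤ 2 * n * (walks G u v).card) = nb (robust G k) u := by
        ext v; simp only [nb, mem_filter, mem_univ, true_and]; rfl
      rw [this]
      simpa using Finset.sum_le_card_nsmul _ _ _ fun v _ => hW v
    · rw [Finset.mul_sum]
      refine (Finset.sum_le_card_nsmul _ _ (k ^ 3) fun v hv => ?_).trans ?_
      · simp at hv; omega
      · simp only [smul_eq_mul]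
        exact Nat.mul_le_mul_right _ (card_filter_le _ _)
  have hd : k ≤ d := hdeg u
  have h1 : d * (2 * d * k ^ 2) ≤ d * (2 * n ^ 2 * g + k ^ 3) := by
    calc d * (2 * d * k ^ 2) = 2 * (d * k) ^ 2 := by ring
      _ ≤ 2 * n * ∑ v ∈ nb G u, (walks G u v).card := by
          rw [mul_assoc]; exact Nat.mul_le_mul_left _ hC
      _ ≤ _ := hD
      _ = d * (2 * n ^ 2 * g + k ^ 3) := by ring
  have h2 := Nat.le_of_mul_le_mul_left h1 (by omega)
  have h3 : 2 * k * k ^ 2 ≤ 2 * d * k ^ 2 := by gcongr
  have h4 : 2 * k * k ^ 2 = 2 * k ^ 3 := by ring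
  omega

/-- Completing a forest to a spanning tree takes one edge less than there are components. -/
lemma exists_tree_le {G : SimpleGraph (Fin n)} (hG : G.Connected) : ∀ (m : ℕ)
    (F : SimpleGraph (Fin n)), F ≤ G → F.IsAcyclic → Nat.card F.ConnectedComponent ≤ m + 1 →
    ∃ T, F ≤ T ∧ T ≤ G ∧ T.IsTree ∧ (T.edgeFinset \ F.edgeFinset).card ≤ m := by
  intro m
  induction m with
  | zero =>
    intro F hF hA hc
    have : Subsingleton F.ConnectedComponent := Finite.card_le_one_iff_subsingleton.1 hc
    have := hG.nonempty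
    exact ⟨F, le_rfl, hF, ⟨⟨fun u v => ConnectedComponent.exact (Subsingleton.elim _ _)⟩, hA⟩, by simp⟩
  | succ m ih =>
    intro F hF hA hc
    by_cases hsmall : Nat.card F.ConnectedComponent ≤ m + 1
    · obtain ⟨T, h1, h2, h3, h4⟩ := ih F hF hA hsmall
      exact ⟨T, h1, h2, h3, by omega⟩
    obtain ⟨u, v, huv, hr⟩ : ∃ u v, G.Adj u v ∧ ¬F.Reachable u v := by
      by_contra hall
      push Not at hall
      have hreach : ∀ a b, F.Reachable a b := fun a b => by
        obtain ⟨p⟩ := hG.preconnected a b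
        induction p with
        | nil => exact .rfl
        | cons h _ ihp => exact (hall _ _ h).trans ihp
      have : Subsingleton F.ConnectedComponent :=
        ⟨ConnectedComponent.ind₂ fun a b => ConnectedComponent.sound (hreach a b)⟩
      have := Finite.card_le_one_iff_subsingleton.2 this
      omega
    set F' := F ⊔ edge u v with hF'
    have hle : F' ≤ G := sup_le hF ((edge_le_iff _).2 (Or.inr huv))
    have hlt : Nat.card F'.ConnectedComponent < Nat.card F.ConnectedComponent := by
      rw [Nat.card_eq_fintype_card, Nat.card_eq_fintype_card]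
      refine Fintype.card_lt_of_surjective_not_injective
        (ConnectedComponent.map (Hom.ofLE (le_sup_left : F ≤ F')))
        (ConnectedComponent.surjective_map_ofLE le_sup_left) fun hinj => hr ?_
      refine ConnectedComponent.exact (hinj (a₁ := F.connectedComponentMk u)
        (a₂ := F.connectedComponentMk v) ?_)
      simp only [ConnectedComponent.map_mk, Hom.coe_ofLE, id_eq]
      exact ConnectedComponent.sound (Adj.reachable (by simp [F', edge_adj, huv.ne]))
    obtain ⟨T, h1, h2, h3, h4⟩ :=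
      ih F' hle (hA.sup_edge_of_not_reachable hr) (by omega)
    refine ⟨T, le_sup_left.trans h1, h2, h3, ?_⟩
    calc (T.edgeFinset \ F.edgeFinset).card
        ≤ ((T.edgeFinset \ F'.edgeFinset) ∪ {s(u, v)}).card := by
          refine card_le_card fun e => ?_
          induction e using Sym2.inductionOn with
          | _ a b =>
            simp [F']
            intro h1' h2'
            by_cases hab : (a = u ∧ b = v ∨ a = v ∧ b = u)
            · exact Or.inl hab
            · exact Or.inr ⟨h1', by tauto⟩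
      _ ≤ (T.edgeFinset \ F'.edgeFinset).card + 1 := by
          simpa using card_union_le (T.edgeFinset \ F'.edgeFinset) {s(u, v)}
      _ ≤ m + 1 := Nat.add_le_add_right
          (le_of_eq_of_le (congrArg Finset.card (Finset.ext fun e => by simp)) h4) 1

lemma exists_low_degree {F : SimpleGraph (Fin n)} (hA : F.IsAcyclic) (c : F.ConnectedComponent) :
    ∃ v, F.connectedComponentMk v = c ∧ (nb F v).card ≤ 1 := by
  obtain ⟨r, rfl⟩ := c.exists_rep
  obtain ⟨v, hv, hmax⟩ := Finset.exists_max_image
    (univ.filter fun v => F.Reachable r v) (F.dist r) ⟨r, by simp⟩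
  simp only [mem_filter, mem_univ, true_and] at hv hmax
  refine ⟨v, ConnectedComponent.sound hv.symm, Finset.card_le_one.2 ?_⟩
  intro a ha b hb
  simp [nb] at ha hb
  have hd : ∀ w, F.Adj v w → F.dist r w + 1 = F.dist r v := fun w hw => by
    have h1 := hmax w (hv.trans hw.reachable)
    have h2 := hA.dist_eq_dist_add_one_of_adj_of_reachable r hw hv
    omega
  obtain ⟨p, hp⟩ := (hv.trans ha.reachable).exists_walk_length_eq_dist
  obtain ⟨q, hq⟩ := (hv.trans hb.reachable).exists_walk_length_eq_dist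
  have hp' : (p.concat ha.symm).IsPath :=
    Walk.isPath_of_length_eq_dist _ (by rw [Walk.length_concat, hp, hd a ha])
  have hq' : (q.concat hb.symm).IsPath :=
    Walk.isPath_of_length_eq_dist _ (by rw [Walk.length_concat, hq, hd b hb])
  have := congrArg Subtype.val (@Subsingleton.elim _
    (isAcyclic_iff_subsingleton_path.1 hA r v) ⟨_, hp'⟩ ⟨_, hq'⟩)
  obtain ⟨h, -⟩ := Walk.concat_inj this
  exact h

lemma card_edges_le {G F : SimpleGraph (Fin n)} (hG : G.Connected) (hF : F ≤ G)
    (hA : F.IsAcyclic) : F.edgeFinset.card ≤ n := by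
  obtain ⟨T, h1, -, h3⟩ := hG.exists_isTree_le_of_le_of_isAcyclic hF hA
  have := h3.card_edgeFinset
  have := card_le_card (edgeFinset_mono h1)
  simp at *
  omega

/-- A maximal robust forest of degree at most `D` has few components. -/
lemma exists_forest {G : SimpleGraph (Fin n)} (hG : G.Connected) {k : ℕ} (hk : 0 < k) (hkn : k ≤ n)
    (hdeg : ∀ v, k ≤ (nb G v).card) :
    ∃ F, F ≤ robust G k ∧ F.IsAcyclic ∧ (∀ v, (nb F v).card ≤ 8 * n ^ 3 / k ^ 3 + 1) ∧
      Nat.card F.ConnectedComponent * k ^ 3 ≤ 4 * n ^ 3 := by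
  set D := 8 * n ^ 3 / k ^ 3 + 1 with hD
  obtain ⟨F, hF, hmax⟩ := Finset.exists_max_image
    (univ.filter fun F : SimpleGraph (Fin n) =>
      F ≤ robust G k ∧ F.IsAcyclic ∧ ∀ v, (nb F v).card ≤ D)
    (fun F => F.edgeFinset.card) ⟨⊥, by simp only [mem_filter, mem_univ, true_and]; exact ⟨bot_le, isAcyclic_bot, fun v => by simp [nb, Finset.filter_false]⟩⟩
  simp only [mem_filter, mem_univ, true_and] at hF hmax
  obtain ⟨hle, hA, hdF⟩ := hF
  refine ⟨F, hle, hA, hdF, ?_⟩
  set sat := univ.filter fun v => (nb F v).card = D with hsat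
  have hk3 : 0 < k ^ 3 := by positivity
  have hDk : 8 * n ^ 3 < D * k ^ 3 := by
    rw [hD, add_mul, one_mul]
    have h1 := Nat.div_add_mod' (8 * n ^ 3) (k ^ 3)
    have h2 := Nat.mod_lt (8 * n ^ 3) hk3
    omega
  have hRG : robust G k ≤ G := fun _ _ h => h.1
  have hsc : sat.card * D ≤ 2 * n := by
    calc sat.card * D = ∑ v ∈ sat, (nb F v).card := by
          rw [Finset.sum_congr rfl fun v hv => (mem_filter.1 hv).2]; simp [sat]
      _ ≤ ∑ v, (nb F v).card := Finset.sum_le_univ_sum_of_nonneg (fun _ => Nat.zero_le _)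
      _ = 2 * F.edgeFinset.card := by
          simp only [card_nb]; exact F.sum_degrees_eq_twice_card_edges
      _ ≤ 2 * n := Nat.mul_le_mul_left _ (card_edges_le hG (hle.trans hRG) hA)
  have hn : 0 < n := by omega
  have hsat' : 4 * n ^ 2 * sat.card ≤ k ^ 3 := by
    refine Nat.le_of_mul_le_mul_left (?_ : 2 * n * (4 * n ^ 2 * sat.card) ≤ 2 * n * k ^ 3)
      (by omega)
    calc 2 * n * (4 * n ^ 2 * sat.card) = sat.card * (8 * n ^ 3) := by ring
      _ ≤ sat.card * (D * k ^ 3) := Nat.mul_le_mul_left _ hDk.le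
      _ = sat.card * D * k ^ 3 := by ring
      _ ≤ 2 * n * k ^ 3 := Nat.mul_le_mul_right _ hsc
  have hD2 : 2 ≤ D := by
    have : 1 ≤ 8 * n ^ 3 / k ^ 3 := by
      rw [Nat.one_le_div_iff hk3]
      have := Nat.pow_le_pow_left hkn 3
      omega
    omega
  have hbig : ∀ c : F.ConnectedComponent,
      k ^ 3 ≤ 4 * n ^ 2 * (univ.filter fun w => F.connectedComponentMk w = c).card := by
    intro c
    obtain ⟨u, hu, hu1⟩ := exists_low_degree hA c
    have hus : (nb F u).card < D := by omega
    have hsub : nb (robust G k) u \ sat ⊆ univ.filter fun w => F.connectedComponentMk w = c := by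
      intro w hw
      obtain ⟨huw, hws⟩ := mem_sdiff.1 hw
      replace huw : (robust G k).Adj u w := (mem_filter.1 huw).2
      replace hws : (nb F w).card ≠ D := fun e => hws (mem_filter.2 ⟨mem_univ _, e⟩)
      simp only [mem_filter, mem_univ, true_and, ← hu]
      by_contra hne
      have hr : ¬F.Reachable u w := fun h => hne (ConnectedComponent.sound h.symm)
      have hnew : F ⊔ edge u w ≤ robust G k :=
        sup_le hle ((edge_le_iff _).2 (Or.inr huw))
      have hlt : F.edgeFinset.card < (F ⊔ edge u w).edgeFinset.card := by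
        refine card_lt_card (edgeFinset_strict_mono ?_)
        exact lt_sup_edge F u w huw.ne fun (h : F.Adj u w) => hr h.reachable
      refine absurd (hmax (F ⊔ edge u w) ⟨hnew, hA.sup_edge_of_not_reachable hr, fun x => ?_⟩)
        (not_le.2 (lt_of_lt_of_eq hlt (congrArg Finset.card (Finset.ext fun e => by simp))))
      by_cases hx : x = u ∨ x = w
      · have hlt' : (nb F x).card < D := by
          rcases hx with rfl | rfl
          · exact hus
          · have := hdF x
            omega
        refine le_trans ?_ (Nat.succ_le_of_lt hlt')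
        refine (card_le_card (t := insert (if x = u then w else u) (nb F x)) fun y hy => ?_).trans
          (card_insert_le _ _)
        simp [nb, edge_adj] at hy ⊢
        rcases hy with h | ⟨⟨rfl, rfl⟩ | ⟨rfl, rfl⟩, -⟩ <;> simp_all
      · refine le_trans (card_le_card fun y hy => ?_) (hdF x)
        simp [nb, edge_adj] at hy ⊢
        tauto
    have h1 := robust_degree G hk hdeg u
    have h2 := le_card_sdiff sat (nb (robust G k) u)
    have h3 : 4 * n ^ 2 * (nb (robust G k) u).card ≤
        4 * n ^ 2 * (nb (robust G k) u \ sat).card + 4 * n ^ 2 * sat.card := by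
      rw [← mul_add]; exact Nat.mul_le_mul_left _ (by omega)
    have h4 := Nat.mul_le_mul_left (4 * n ^ 2) (card_le_card hsub)
    have h5 : 4 * n ^ 2 * (nb (robust G k) u).card = 2 * (2 * n ^ 2 * (nb (robust G k) u).card) := by
      ring
    omega
  calc Nat.card F.ConnectedComponent * k ^ 3 = ∑ _c : F.ConnectedComponent, k ^ 3 := by simp
    _ ≤ ∑ c : F.ConnectedComponent,
        4 * n ^ 2 * (univ.filter fun w => F.connectedComponentMk w = c).card :=
      Finset.sum_le_sum fun c _ => hbig c
    _ = 4 * n ^ 2 * n := by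
      rw [← Finset.mul_sum, ← Finset.card_eq_sum_card_fiberwise
        (f := fun w => F.connectedComponentMk w) (s := univ) (t := univ) (fun _ _ => mem_univ _)]
      simp
    _ = 4 * n ^ 3 := by ring

/-- Robust forest edges across a cut force many edges of the graph across it. -/
lemma crossing {G F : SimpleGraph (Fin n)} {k D : ℕ} (hle : F ≤ robust G k)
    (hD : ∀ v, (nb F v).card ≤ D) (S : Finset (Fin n)) :
    (cutSet F S).card * k ^ 3 ≤ 6 * n ^ 2 * D * (cutSet G S).card := by
  set α : Fin n → ℕ := fun u => ((nb G u).filter fun a => a ∉ S).card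
  set β : Fin n → ℕ := fun v => ((nb G v).filter fun b => b ∈ S).card
  set c := (cutSet G S).card
  have hP : ∀ p ∈ cutSet F S, (walks G p.1 p.2).card ≤ n * α p.1 + c + n * β p.2 := by
    intro p _
    calc (walks G p.1 p.2).card
        ≤ ((((nb G p.1).filter fun a => a ∉ S) ×ˢ (univ : Finset (Fin n))) ∪ cutSet G S ∪
            ((univ : Finset (Fin n)) ×ˢ ((nb G p.2).filter fun b => b ∈ S))).card := by
          refine card_le_card fun q hq => ?_
          simp [walks, nb, cutSet, G.adj_comm] at hq ⊢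
          tauto
      _ ≤ _ := (card_union_le _ _).trans (Nat.add_le_add_right (card_union_le _ _) _)
      _ = n * α p.1 + c + n * β p.2 := by simp [α, β, c, mul_comm]
  have hc1 : ∑ u ∈ S, α u = c := by
    simp only [α, c, cutSet]
    rw [← Finset.card_sigma]
    refine Finset.card_equiv (Equiv.sigmaEquivProd _ _) fun x => ?_
    simp [nb]; tauto
  have hc2 : ∑ v ∈ Sᶜ, β v = c := by
    simp only [β, c, cutSet]
    rw [← Finset.card_sigma]
    refine Finset.card_equiv ((Equiv.sigmaEquivProd _ _).trans (Equiv.prodComm _ _)) fun x => ?_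
    simp [nb, G.adj_comm]; tauto
  have h1 : ∑ p ∈ cutSet F S, α p.1 ≤ D * c := by
    rw [← Finset.sum_fiberwise_of_maps_to (t := S) (g := Prod.fst)
      (fun p hp => (mem_filter.1 hp).2.1), ← hc1, Finset.mul_sum]
    refine Finset.sum_le_sum fun u _ => ?_
    rw [Finset.sum_congr rfl (fun p hp => by rw [(mem_filter.1 hp).2] : ∀ p ∈
      (cutSet F S).filter (fun p => p.1 = u), α p.1 = α u), Finset.sum_const, smul_eq_mul]
    refine Nat.mul_le_mul_right _ (le_trans ?_ (hD u))
    refine Finset.card_le_card_of_injOn Prod.snd (fun p hp => ?_) fun p hp q hq h => ?_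
    · simp [cutSet, nb] at hp ⊢
      exact hp.2 ▸ hp.1.2.2
    · simp at hp hq
      exact Prod.ext (hp.2.trans hq.2.symm) h
  have h2 : ∑ p ∈ cutSet F S, β p.2 ≤ D * c := by
    rw [← Finset.sum_fiberwise_of_maps_to (t := Sᶜ) (g := Prod.snd)
      (fun p hp => mem_compl.2 (mem_filter.1 hp).2.2.1), ← hc2, Finset.mul_sum]
    refine Finset.sum_le_sum fun u _ => ?_
    rw [Finset.sum_congr rfl (fun p hp => by rw [(mem_filter.1 hp).2] : ∀ p ∈
      (cutSet F S).filter (fun p => p.2 = u), β p.2 = β u), Finset.sum_const, smul_eq_mul]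
    refine Nat.mul_le_mul_right _ (le_trans ?_ (hD u))
    refine Finset.card_le_card_of_injOn Prod.fst (fun p hp => ?_) fun p hp q hq h => ?_
    · simp [cutSet, nb] at hp ⊢
      exact (hp.2 ▸ hp.1.2.2).symm
    · simp at hp hq
      exact Prod.ext h (hp.2.trans hq.2.symm)
  have h3 : (cutSet F S).card ≤ n * D := by
    calc (cutSet F S).card ≤ ((univ : Finset (Fin n)).sigma (nb F)).card := by
          refine Finset.card_le_card_of_injOn (fun p => ⟨p.1, p.2⟩) (fun p hp => ?_)
            fun p _ q _ h => ?_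
          · simp [cutSet, nb] at hp ⊢; exact hp.2.2
          · simp at h; exact Prod.ext h.1 h.2
      _ = ∑ u, (nb F u).card := Finset.card_sigma _ _
      _ ≤ n * D := by simpa using Finset.sum_le_card_nsmul univ _ D fun u _ => hD u
  calc (cutSet F S).card * k ^ 3 = ∑ _p ∈ cutSet F S, k ^ 3 := by simp
    _ ≤ ∑ p ∈ cutSet F S, 2 * n * (n * α p.1 + c + n * β p.2) :=
      Finset.sum_le_sum fun p hp => (hle (mem_filter.1 hp).2.2.2).2.trans
        (Nat.mul_le_mul_left _ (hP p hp))
    _ = 2 * n * (n * ∑ p ∈ cutSet F S, α p.1 + (cutSet F S).card * c +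
        n * ∑ p ∈ cutSet F S, β p.2) := by
      simp only [← Finset.mul_sum, Finset.sum_add_distrib, Finset.sum_const, smul_eq_mul]
    _ ≤ 2 * n * (n * (D * c) + n * D * c + n * (D * c)) := by gcongr
    _ = 6 * n ^ 2 * D * c := by ring

theorem result :
    ∀ n k : ℕ, 2 ≤ n → 1 ≤ k → ∀ G : SimpleGraph (Fin n),
      (∀ S : Finset (Fin n), S.Nonempty → S ≠ univ → k ≤ cutSize G S) →
      ∃ T : SimpleGraph (Fin n), T ≤ G ∧ T.IsTree ∧
        ∀ S : Finset (Fin n), S.Nonempty → S ≠ univ →
          (cutSize T S : ℝ) ≤ 58 * ((n : ℝ) / k) ^ 5 / k * (cutSize G S : ℝ) := by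
  intro n k hn hk G hcut
  have hdeg : ∀ v, k ≤ (nb G v).card := fun v => by
    have h := hcut {v} (singleton_nonempty v) fun h => by
      have := congrArg Finset.card h; simp at this; omega
    rw [cutSize_eq] at h
    refine h.trans (Finset.card_le_card_of_injOn Prod.snd (fun p hp => ?_) fun p hp q hq e => ?_)
    · simp [cutSet, nb] at hp ⊢; exact hp.1 ▸ hp.2.2
    · simp [cutSet] at hp hq; exact Prod.ext (hp.1.trans hq.1.symm) e
  have hkn : k ≤ n := (hdeg ⟨0, by omega⟩).trans (by simpa using card_le_univ (nb G ⟨0, by omega⟩))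
  have hne : Nonempty (Fin n) := ⟨⟨0, by omega⟩⟩
  have hconn : G.Connected := by
    refine ⟨fun a b => ?_⟩
    by_contra hab
    set S := univ.filter (G.Reachable a)
    have h := hcut S ⟨a, by simp [S]⟩ fun h => hab (by simpa [S] using h.ge (mem_univ b))
    rw [cutSize_eq] at h
    have : cutSet G S = ∅ := by
      ext p; simp [cutSet, S]
      exact fun h1 h2 h3 => h2 (h1.trans h3.reachable)
    simp [this] at h; omega
  obtain ⟨F, hle, hA, hD, hcomp⟩ := exists_forest hconn hk hkn hdeg
  obtain ⟨T, hFT, hTG, hT, hm⟩ := exists_tree_le hconn (Nat.card F.ConnectedComponent) F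
    (hle.trans fun _ _ h => h.1) hA (Nat.le_succ _)
  refine ⟨T, hTG, hT, fun S hS hSu => ?_⟩
  have hG := hcut S hS hSu
  rw [cutSize_eq, cutSize_eq] at *
  set c := (cutSet G S).card
  set x := (cutSet F S).card
  set M := Nat.card F.ConnectedComponent
  have hTc : (cutSet T S).card ≤ x + M := by
    refine le_trans (card_le_card_sdiff_add_card (t := cutSet F S)) ?_
    rw [add_comm]
    refine Nat.add_le_add_left (le_trans ?_ hm) _
    refine Finset.card_le_card_of_injOn (fun p => s(p.1, p.2)) (fun p hp => ?_)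
      fun p hp q hq h => ?_
    · simp [cutSet] at hp ⊢; tauto
    · simp [cutSet] at hp hq
      rcases Sym2.eq_iff.1 h with ⟨e1, e2⟩ | ⟨e1, e2⟩
      · exact Prod.ext e1 e2
      · exact absurd (e1 ▸ hp.1.1) hq.1.2.1
  have hx : x * k ^ 3 ≤ 6 * n ^ 2 * (8 * n ^ 3 / k ^ 3 + 1) * c := crossing hle hD S
  have hDk : (8 * n ^ 3 / k ^ 3 + 1) * k ^ 3 ≤ 9 * n ^ 3 := by
    have h1 := Nat.div_mul_le_self (8 * n ^ 3) (k ^ 3)
    have h2 := Nat.pow_le_pow_left hkn 3
    rw [add_mul, one_mul]; omega
  have key : (cutSet T S).card * k ^ 6 ≤ 58 * n ^ 5 * c := by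
    calc (cutSet T S).card * k ^ 6 ≤ (x + M) * k ^ 6 := Nat.mul_le_mul_right _ hTc
      _ = x * k ^ 3 * k ^ 3 + M * k ^ 3 * (k ^ 2 * k) := by ring
      _ ≤ 6 * n ^ 2 * (8 * n ^ 3 / k ^ 3 + 1) * c * k ^ 3 + 4 * n ^ 3 * (n ^ 2 * c) := by gcongr
      _ = 6 * n ^ 2 * ((8 * n ^ 3 / k ^ 3 + 1) * k ^ 3) * c + 4 * n ^ 5 * c := by ring
      _ ≤ 6 * n ^ 2 * (9 * n ^ 3) * c + 4 * n ^ 5 * c := by gcongr
      _ = 58 * n ^ 5 * c := by ring
  have hk0 : (0 : ℝ) < k := by exact_mod_cast hk
  rw [show (58 : ℝ) * ((n : ℝ) / k) ^ 5 / k * (c : ℝ) = 58 * (n : ℝ) ^ 5 * c / (k : ℝ) ^ 6 by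
    field_simp]
  rw [le_div_iff₀ (by positivity)]
  exact_mod_cast key

end Vale.Agent.Results.P061.DenseStrongThinTree
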