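import Mathlib

namespace Vale.Agent.Results.P061.ThinnessAtLeastFour

open Finset SimpleGraph

/-- The number of edges with exactly one endpoint in `S`. -/
noncomputable def cutSize {n : ℕ} (G : SimpleGraph (Fin n)) (S : Finset (Fin n)) : ℕ :=
  Nat.card {p : Fin n × Fin n // p.1 ∈ S ∧ p.2 ∉ S ∧ G.Adj p.1 p.2}

lemma cutSize_top {n : ℕ} (S : Finset (Fin n)) :
    cutSize (⊤ : SimpleGraph (Fin n)) S = S.card * (n - S.card) := by
  classical
  rw [cutSize, Nat.card_eq_fintype_card, Fintype.card_subtype,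
    show S.card * (n - S.card) = (S ×ˢ Sᶜ).card by simp [Finset.card_product, Finset.card_compl]]
  congr 1
  ext p
  simp only [Finset.mem_filter, Finset.mem_univ, true_and, Finset.mem_product, Finset.mem_compl,
    top_adj]
  exact ⟨fun h => ⟨h.1, h.2.1⟩, fun h => ⟨h.1, h.2, fun e => h.2 (e ▸ h.1)⟩⟩

lemma tree_bipartition {n : ℕ} {T : SimpleGraph (Fin n)} (hT : T.IsTree) (hn : 0 < n) :
    ∃ S : Finset (Fin n), cutSize T S = n - 1 := by
  classical
  set o : Fin n := ⟨0, hn⟩
  set S := univ.filter fun v => T.dist o v % 2 = 0 with hS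
  refine ⟨S, ?_⟩
  set D := univ.filter fun p : Fin n × Fin n => p.1 ∈ S ∧ p.2 ∉ S ∧ T.Adj p.1 p.2 with hD
  have hinj : Set.InjOn (fun p : Fin n × Fin n => s(p.1, p.2)) (D : Set (Fin n × Fin n)) := by
    intro p hp q hq h
    simp only [hD, Finset.coe_filter, Finset.mem_univ, true_and, Set.mem_ofPred_eq] at hp hq
    rcases Sym2.eq_iff.1 h with ⟨h1, h2⟩ | ⟨h1, h2⟩
    · exact Prod.ext h1 h2
    · exact absurd (h1 ▸ hp.1) hq.2.1
  have himg : D.image (fun p => s(p.1, p.2)) = T.edgeFinset := by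
    ext e
    induction e using Sym2.inductionOn with
    | _ x y =>
      rw [mem_edgeFinset, mem_edgeSet, Finset.mem_image]
      constructor
      · rintro ⟨p, hp, he⟩
        have := (Finset.mem_filter.1 hp).2.2.2
        rcases Sym2.eq_iff.1 he with ⟨h1, h2⟩ | ⟨h1, h2⟩
        · rwa [h1, h2] at this
        · rw [h1, h2] at this; exact this.symm
      · intro h
        have hd := hT.dist_eq_dist_add_one_of_adj o h
        by_cases hx : T.dist o x % 2 = 0
        · refine ⟨(x, y), ?_, rfl⟩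
          simp only [hD, hS, Finset.mem_filter, Finset.mem_univ, true_and]
          exact ⟨hx, by omega, h⟩
        · refine ⟨(y, x), ?_, Sym2.eq_swap⟩
          simp only [hD, hS, Finset.mem_filter, Finset.mem_univ, true_and]
          exact ⟨by omega, hx, h.symm⟩
  have := hT.card_edgeFinset
  rw [Fintype.card_fin] at this
  rw [cutSize, Nat.card_eq_fintype_card, Fintype.card_subtype, ← hD,
    ← Finset.card_image_of_injOn hinj, himg]
  omega

theorem result :
    (∀ k : ℕ, 1 ≤ k → ∃ G : SimpleGraph (Fin (k + 1)),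
      (∀ S : Finset (Fin (k + 1)), S.Nonempty → S ≠ univ → k ≤ cutSize G S) ∧
      ∀ T : SimpleGraph (Fin (k + 1)), T ≤ G → T.IsTree → ∃ S : Finset (Fin (k + 1)),
        S.Nonempty ∧ S ≠ univ ∧ 4 * k * cutSize G S ≤ (k + 1) ^ 2 * cutSize T S) ∧
    ∀ C : ℝ, (∀ k : ℕ, 1 ≤ k → ∀ n : ℕ, 2 ≤ n → ∀ G : SimpleGraph (Fin n),
      (∀ S : Finset (Fin n), S.Nonempty → S ≠ univ → k ≤ cutSize G S) →
        ∃ T : SimpleGraph (Fin n), T ≤ G ∧ T.IsTree ∧ ∀ S : Finset (Fin n), S.Nonempty → S ≠ univ →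
          (cutSize T S : ℝ) ≤ C / k * (cutSize G S : ℝ)) → 4 ≤ C := by
  have key : ∀ k : ℕ, 1 ≤ k →
      (∀ S : Finset (Fin (k + 1)), S.Nonempty → S ≠ univ →
        k ≤ cutSize (⊤ : SimpleGraph (Fin (k + 1))) S) ∧
      ∀ T : SimpleGraph (Fin (k + 1)), T.IsTree → ∃ S : Finset (Fin (k + 1)),
        S.Nonempty ∧ S ≠ univ ∧ cutSize T S = k ∧
          4 * cutSize (⊤ : SimpleGraph (Fin (k + 1))) S ≤ (k + 1) ^ 2 := by
    intro k hk
    refine ⟨fun S hS hu => ?_, fun T hT => ?_⟩
    · have h1 : 1 ≤ S.card := Finset.card_pos.2 hS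
      have h2 : S.card < k + 1 := by
        have := Finset.card_lt_card (Finset.ssubset_univ_iff.2 hu)
        simpa using this
      rw [cutSize_top]
      obtain ⟨b, hb⟩ := Nat.exists_eq_add_of_lt h2
      rw [show k + 1 - S.card = b + 1 by omega]
      have : S.card * 1 ≤ S.card * (b + 1) := Nat.mul_le_mul_left _ (by omega)
      nlinarith
    · obtain ⟨S, hS⟩ := tree_bipartition hT (Nat.succ_pos k)
      rw [Nat.succ_sub_one] at hS
      have hne : S.Nonempty := by
        rw [Finset.nonempty_iff_ne_empty]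
        rintro rfl
        simp [cutSize] at hS
        omega
      have hnu : S ≠ univ := by
        rintro rfl
        simp [cutSize] at hS
        omega
      refine ⟨S, hne, hnu, hS, ?_⟩
      rw [cutSize_top]
      have h2 : S.card ≤ k + 1 := by simpa using S.card_le_univ
      obtain ⟨b, hb⟩ := Nat.exists_eq_add_of_le h2
      have hb' : k + 1 - S.card = b := by omega
      rw [hb']
      nlinarith [sq_nonneg ((S.card : ℤ) - b)]
  refine ⟨fun k hk => ⟨⊤, (key k hk).1, fun T _ hT => ?_⟩, fun C hC => ?_⟩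
  · obtain ⟨S, h1, h2, h3, h4⟩ := (key k hk).2 T hT
    refine ⟨S, h1, h2, ?_⟩
    rw [h3, mul_comm 4 k, mul_assoc, mul_comm ((k + 1) ^ 2) k]
    exact Nat.mul_le_mul_left _ h4
  · have hlow : ∀ k : ℕ, 1 ≤ k → 4 * (k : ℝ) ^ 2 ≤ C * ((k : ℝ) + 1) ^ 2 := fun k hk => by
      obtain ⟨T, -, hT, hthin⟩ := hC k hk (k + 1) (by omega) ⊤ (key k hk).1
      obtain ⟨S, h1, h2, h3, h4⟩ := (key k hk).2 T hT
      have h := hthin S h1 h2
      rw [h3] at h
      have hk0 : (0 : ℝ) < k := by exact_mod_cast hk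
      have h4' : 4 * (cutSize (⊤ : SimpleGraph (Fin (k + 1))) S : ℝ) ≤ ((k : ℝ) + 1) ^ 2 := by
        exact_mod_cast h4
      have hg : (0 : ℝ) ≤ (cutSize (⊤ : SimpleGraph (Fin (k + 1))) S : ℝ) := Nat.cast_nonneg _
      have h5 := mul_le_mul_of_nonneg_left h hk0.le
      rw [show (k : ℝ) * (C / k * (cutSize (⊤ : SimpleGraph (Fin (k + 1))) S : ℝ)) =
        C * (cutSize (⊤ : SimpleGraph (Fin (k + 1))) S : ℝ) by field_simp] at h5
      have hC0 : 0 < C := by
        by_contra hC0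
        nlinarith [mul_nonneg (neg_nonneg.2 (not_lt.1 hC0)) hg]
      nlinarith [mul_le_mul_of_nonneg_left h4' hC0.le]
    by_contra hC4
    rw [not_le] at hC4
    obtain ⟨k, hk⟩ := exists_nat_gt (12 / (4 - C) + 1)
    have hpos : 0 < 4 - C := by linarith
    have hk1 : (1 : ℝ) ≤ k := by linarith [div_pos (by norm_num : (0 : ℝ) < 12) hpos]
    have h := hlow k (by exact_mod_cast hk1)
    have h12 : 12 < (4 - C) * (k : ℝ) := by
      have h5 : 12 / (4 - C) < (k : ℝ) := by linarith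
      rw [div_lt_iff₀ hpos] at h5
      linarith
    nlinarith

end Vale.Agent.Results.P061.ThinnessAtLeastFour
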